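import Mathlib

namespace Vale.Agent.N060F

open scoped Classical

variable {V : Type}

/-- `G` has a `K_t` minor: `t` pairwise disjoint nonempty vertex sets, each inducing a connected subgraph, with an
edge between any two. -/
def CliqueMinor (G : SimpleGraph V) (t : ℕ) : Prop :=
  ∃ B : Fin t → Set V, (∀ i, (B i).Nonempty ∧ (G.induce (B i)).Connected) ∧
    ∀ i j, i ≠ j → Disjoint (B i) (B j) ∧ ∃ x ∈ B i, ∃ y ∈ B j, G.Adj x y

/-- The Hadwiger number `h(G)`. -/
noncomputable def had (G : SimpleGraph V) : ℕ := sSup {t | CliqueMinor G t}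

/-- A fractional clique minor: nonnegative weights on vertex sets; the sets of nonzero weight induce connected
subgraphs, any two of them share a vertex or are joined by an edge, and the sets containing a given vertex have
total weight at most one. -/
def FracMinor [Fintype V] (G : SimpleGraph V) (w : Finset V → ℝ) : Prop :=
  (∀ B, 0 ≤ w B) ∧ (∀ B, w B ≠ 0 → (G.induce (B : Set V)).Connected) ∧
    (∀ A B, w A ≠ 0 → w B ≠ 0 → ∃ x ∈ A, ∃ y ∈ B, x = y ∨ G.Adj x y) ∧
    ∀ v, ∑ B with v ∈ B, w B ≤ 1

/-- The fractional Hadwiger number. -/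
noncomputable def hadF [Fintype V] (G : SimpleGraph V) : ℝ :=
  sSup {h | ∃ w, FracMinor G w ∧ h = ∑ B, w B}

/-- A fractional colouring: nonnegative weights on independent sets which cover every vertex at least once. -/
def FracColouring [Fintype V] (G : SimpleGraph V) (w : Finset V → ℝ) : Prop :=
  (∀ I, 0 ≤ w I) ∧ (∀ I, w I ≠ 0 → G.IsIndepSet (I : Set V)) ∧ ∀ v, 1 ≤ ∑ I with v ∈ I, w I

/-- The fractional chromatic number. -/
noncomputable def chiF [Fintype V] (G : SimpleGraph V) : ℝ :=
  sInf {c | ∃ w, FracColouring G w ∧ c = ∑ I, w I}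

/-- The blow-up `G[K_r]`: every vertex is replaced by a clique on `r` vertices. -/
def blow (G : SimpleGraph V) (r : ℕ) : SimpleGraph (V × Fin r) :=
  SimpleGraph.fromRel fun x y => x.1 = y.1 ∨ G.Adj x.1 y.1

end Vale.Agent.N060F
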