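import Vale.Agent.P060.H467.Fin

/-!
# P060 / N060F: from tuples of one type to a symmetric coupling

A law of `r`-tuples and a fixed point free permutation `τ` of the positions give the law of the pair
`(y k, y (τ k))`, `k` uniform; relative entropy, conflicts and the averaged marginal do not get worse.
-/

set_option autoImplicit false

open scoped Classical

noncomputable section

namespace Vale.Agent.N060F

open Vale.Agent.P060.HW Finset

/-- Push-forward of a weight. -/
def push {Ω Z : Type*} [Fintype Ω] (F : Ω → Z) (P : Ω → ℝ) (z : Z) : ℝ :=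
  ∑ ω, if F ω = z then P ω else 0

lemma sum_push {Ω Z : Type*} [Fintype Ω] [Fintype Z] (F : Ω → Z) (P : Ω → ℝ) (φ : Z → ℝ) :
    ∑ z, push F P z * φ z = ∑ ω, P ω * φ (F ω) := by
  unfold push
  simp_rw [sum_mul]
  rw [sum_comm]
  refine sum_congr rfl fun ω _ => ?_
  rw [sum_eq_single (F ω)]
  · simp
  · intro z _ hz
    rw [if_neg (Ne.symm hz), zero_mul]
  · simp

lemma push_nonneg {Ω Z : Type*} [Fintype Ω] (F : Ω → Z) {P : Ω → ℝ} (h : ∀ ω, 0 ≤ P ω) (z : Z) :
    0 ≤ push F P z :=
  sum_nonneg fun ω _ => by split_ifs; exacts [h ω, le_rfl]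

lemma le_push {Ω Z : Type*} [Fintype Ω] (F : Ω → Z) {P : Ω → ℝ} (h : ∀ ω, 0 ≤ P ω) (ω : Ω) :
    P ω ≤ push F P (F ω) := by
  have := single_le_sum (f := fun ω' => if F ω' = F ω then P ω' else 0)
    (fun ω' _ => by split_ifs; exacts [h ω', le_rfl]) (mem_univ ω)
  simpa [push] using this

/-- Data processing for the relative entropy with respect to uniform laws. -/
lemma kl_push {Ω Z : Type*} [Fintype Ω] [Fintype Z] (F : Ω → Z) {P : Ω → ℝ} (h : ∀ ω, 0 ≤ P ω)
    {M N : ℝ} (hM : 0 < M) (hN : 0 < N) (hF : ∀ z, push F (fun _ => 1) z * N ≤ M) :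
    ∑ z, push F P z * Real.log (push F P z * N) ≤ ∑ ω, P ω * Real.log (P ω * M) := by
  rw [sum_push F P fun z => Real.log (push F P z * N)]
  have key : ∀ ω, P ω * Real.log (push F P (F ω) * N)
      ≤ P ω * Real.log (P ω * M) + (push F P (F ω) * N / M - P ω) := by
    intro ω
    rcases (h ω).eq_or_lt with h0 | h0
    · rw [← h0]
      have := push_nonneg F h (F ω)
      have : 0 ≤ push F P (F ω) * N / M := by positivity
      linarith
    · have h1 : 0 < push F P (F ω) := h0.trans_le (le_push F h ω)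
      have h2 := Real.log_le_sub_one_of_pos (div_pos (mul_pos h1 hN) (mul_pos h0 hM))
      rw [Real.log_div (mul_pos h1 hN).ne' (mul_pos h0 hM).ne'] at h2
      have h3 := mul_le_mul_of_nonneg_left h2 h0.le
      have h4 : P ω * (push F P (F ω) * N / (P ω * M) - 1) = push F P (F ω) * N / M - P ω := by
        field_simp
      rw [h4] at h3
      linarith
  refine (sum_le_sum fun ω _ => key ω).trans ?_
  rw [sum_add_distrib, sum_sub_distrib]
  have h1 := sum_push F (fun _ => (1 : ℝ)) fun z => push F P z * N / M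
  have h2 := sum_push F P fun _ => (1 : ℝ)
  simp only [one_mul, mul_one] at h1 h2
  rw [← h1, ← h2]
  have h3 : ∑ z, push F (fun _ => (1 : ℝ)) z * (push F P z * N / M) ≤ ∑ z, push F P z := by
    refine sum_le_sum fun z _ => ?_
    have e : push F (fun _ => (1 : ℝ)) z * (push F P z * N / M)
        = push F P z * (push F (fun _ => (1 : ℝ)) z * N / M) := by ring
    rw [e]
    exact mul_le_of_le_one_right (push_nonneg F h z) ((div_le_one hM).2 (hF z))
  linarith

/-- Tuples with two prescribed entries. -/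
lemma card_two {X : Type*} [Fintype X] {r : ℕ} {k k' : Fin r} (hk : k' ≠ k) (a b : X) :
    (univ.filter fun y : Fin r → X => y k = a ∧ y k' = b).card * Fintype.card X ^ 2
      ≤ Fintype.card X ^ r := by
  have := card_le_card_of_injOn
    (s := (univ.filter fun y : Fin r → X => y k = a ∧ y k' = b) ×ˢ (univ : Finset (X × X)))
    (t := univ) (fun q => Function.update (Function.update q.1 k q.2.1) k' q.2.2)
    (fun _ _ => mem_univ _) (by
      rintro ⟨y, u, v⟩ h1 ⟨y', u', v'⟩ h2 h
      rw [mem_coe, mem_product, mem_filter] at h1 h2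
      have e1 := congrFun h k'
      have e2 := congrFun h k
      simp only [Function.update_self, Function.update_of_ne hk.symm] at e1 e2
      refine Prod.ext (funext fun i => ?_) (Prod.ext e2 e1)
      by_cases hi : i = k
      · rw [hi]; exact h1.1.2.1.trans h2.1.2.1.symm
      by_cases hi' : i = k'
      · rw [hi']; exact h1.1.2.2.trans h2.1.2.2.symm
      have e3 := congrFun h i
      simpa only [Function.update_of_ne hi, Function.update_of_ne hi'] using e3)
  simpa [card_product, sq] using this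

/-- From a law of pairs to output (b). -/
lemma outB_of_law {X : Type*} [Fintype X] [Nonempty X] (Adj : X → X → Prop)
    (hsym : ∀ x y, Adj x y → Adj y x) (ν : (Fin 2 → X) → ℝ) {K c I : ℝ} (h0 : ∀ y, 0 ≤ ν y)
    (h1 : ∑ y, ν y = 1) (h2 : ∀ y, ν y ≠ 0 → ¬ Adj (y 0) (y 1))
    (h3 : ∑ y, ν y * Real.log (ν y * (Fintype.card X : ℝ) ^ 2) ≤ K)
    (h4 : ∑ y, ∑ y', (if ∀ k l, Adj (y k) (y' l) then ν y * ν y' else 0) ≤ I)
    (h5 : ∑ x, max 0 (Samp.marg ν x - 1 / (Fintype.card X : ℝ)) ≤ c) :
    OutB Adj K (2 * c) I := by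
  have hX : 0 < Fintype.card X := Fintype.card_pos
  have hX' : (0 : ℝ) < Fintype.card X := by exact_mod_cast hX
  refine ⟨symz ν, ?_, ?_, symz_comm ν, ?_, ?_, ?_, ?_⟩
  · intro x y
    unfold symz
    have := h0 ![x, y]
    have := h0 ![y, x]
    linarith
  · rw [sum_symz, h1]
  · intro x y hxy hadj
    apply hxy
    have e1 : ν ![x, y] = 0 := by
      by_contra h
      exact h2 _ h (by simpa using hadj)
    have e2 : ν ![y, x] = 0 := by
      by_contra h
      exact h2 _ h (by simpa using hsym _ _ hadj)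
    unfold symz
    rw [e1, e2]
    norm_num
  · exact (kl_symz (by positivity) ν h0).trans h3
  · refine abs_le_of_max (fun x => ∑ y, symz ν x y) ?_ ?_
    · rw [sum_symz, h1]
    · simp only [marg_symz]
      exact h5
  · obtain ⟨Q, hQ⟩ : ∃ Q : X → X → X → X → Prop, ∀ a b c d, Q a b c d ↔
        (Adj a c ∧ Adj a d ∧ Adj b c ∧ Adj b d) := ⟨_, fun _ _ _ _ => Iff.rfl⟩
    have hcs := conf_symz Q (fun a b c d => by rw [hQ, hQ]; tauto)
      (fun a b c d => by rw [hQ, hQ]; tauto) ν
    have e1 : ∑ x, ∑ x', ∑ y, ∑ y', (if Adj x y ∧ Adj x y' ∧ Adj x' y ∧ Adj x' y'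
        then symz ν x x' * symz ν y y' else 0)
        = ∑ x, ∑ x', ∑ y, ∑ y', (if Q x x' y y' then symz ν x x' * symz ν y y' else 0) :=
      Finset.sum_congr rfl fun a _ => Finset.sum_congr rfl fun b _ => Finset.sum_congr rfl
        fun c _ => Finset.sum_congr rfl fun d _ => if_congr (hQ a b c d).symm rfl rfl
    rw [e1, hcs]
    refine le_trans (le_of_eq ?_) h4
    refine Finset.sum_congr rfl fun y _ => Finset.sum_congr rfl fun y' _ => ?_
    have hiff : Q (y 0) (y 1) (y' 0) (y' 1) ↔ ∀ k l, Adj (y k) (y' l) := by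
      rw [hQ]
      simp only [Fin.forall_fin_two]
      tauto
    by_cases hc : Q (y 0) (y 1) (y' 0) (y' 1)
    · rw [if_pos hc, if_pos (hiff.1 hc)]
    · rw [if_neg hc, if_neg (fun h => hc (hiff.2 h))]

/-- The pair at position `k`. -/
def pr {X : Type*} {r : ℕ} (τ : Equiv.Perm (Fin r)) (q : (Fin r → X) × Fin r) : Fin 2 → X :=
  ![q.1 q.2, q.1 (τ q.2)]

/-- From a law of tuples to output (b). -/
lemma outB_of_tuples {X : Type*} [Fintype X] [Nonempty X] (Adj : X → X → Prop)
    (hsym : ∀ x y, Adj x y → Adj y x) {r : ℕ} (hr : 1 ≤ r) (τ : Equiv.Perm (Fin r))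
    (hτ : ∀ k, τ k ≠ k) (ν : (Fin r → X) → ℝ) {K c I : ℝ} (h0 : ∀ y, 0 ≤ ν y)
    (h1 : ∑ y, ν y = 1) (h2 : ∀ y, ν y ≠ 0 → ∀ k, ¬ Adj (y k) (y (τ k)))
    (h3 : ∑ y, ν y * Real.log (ν y * (Fintype.card X : ℝ) ^ r) ≤ K)
    (h4 : ∑ y, ∑ y', (if ∃ k l, ∀ i j, Adj (pr τ (y, k) i) (pr τ (y', l) j) then ν y * ν y' else 0) ≤ I)
    (h5 : ∑ x, max 0 (Samp.marg ν x - 1 / (Fintype.card X : ℝ)) ≤ c) :
    OutB Adj K (2 * c) I := by
  have hX' : (0 : ℝ) < Fintype.card X := by exact_mod_cast Fintype.card_pos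
  have hr' : (0 : ℝ) < r := by exact_mod_cast hr
  set P : (Fin r → X) × Fin r → ℝ := fun q => ν q.1 / r with hP
  have hP0 : ∀ q, 0 ≤ P q := fun q => div_nonneg (h0 _) hr'.le
  have hconst : ∀ φ : (Fin r → X) → ℝ, ∑ q : (Fin r → X) × Fin r, P q * φ q.1 = ∑ y, ν y * φ y := by
    intro φ
    rw [Fintype.sum_prod_type]
    refine sum_congr rfl fun y _ => ?_
    simp only [hP, sum_const, card_univ, Fintype.card_fin, nsmul_eq_mul]
    field_simp
  refine outB_of_law Adj hsym (push (pr τ) P) (push_nonneg _ hP0) ?_ ?_ ?_ ?_ ?_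
  · have e1 := sum_push (pr τ) P fun _ => (1 : ℝ)
    have e2 := hconst fun _ => 1
    simp only [mul_one] at e1 e2
    rw [e1, e2, h1]
  · intro z hz
    obtain ⟨q, -, hq⟩ := exists_ne_zero_of_sum_ne_zero hz
    split_ifs at hq with hF
    · rw [← hF]
      refine h2 q.1 (fun h => hq ?_) q.2
      simp [hP, h]
    · exact absurd rfl hq
  · refine (kl_push (pr τ) hP0 (M := (Fintype.card X : ℝ) ^ r * r) (by positivity) (by positivity)
      fun z => ?_).trans (le_trans (le_of_eq ?_) h3)
    · unfold push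
      rw [Fintype.sum_prod_type_right, sum_mul]
      have : ∀ k : Fin r, (∑ y : Fin r → X, if pr τ (y, k) = z then (1 : ℝ) else 0)
          * (Fintype.card X : ℝ) ^ 2 ≤ (Fintype.card X : ℝ) ^ r := by
        intro k
        rw [sum_boole]
        have e : (univ.filter fun y : Fin r → X => pr τ (y, k) = z)
            ⊆ univ.filter fun y : Fin r → X => y k = z 0 ∧ y (τ k) = z 1 := by
          intro y hy
          rw [mem_filter] at hy ⊢
          exact ⟨hy.1, congrFun hy.2 0, congrFun hy.2 1⟩
        exact_mod_cast (Nat.mul_le_mul_right _ (card_le_card e)).trans (card_two (hτ k) (z 0) (z 1))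
      refine le_trans (b := ∑ _k : Fin r, (Fintype.card X : ℝ) ^ r)
        (sum_le_sum fun k _ => le_trans (le_of_eq (by congr!)) (this k)) (le_of_eq ?_)
      simp [mul_comm]
    · rw [← hconst fun y => Real.log (ν y * (Fintype.card X : ℝ) ^ r)]
      refine sum_congr rfl fun q _ => ?_
      congr 2
      simp only [hP]
      field_simp
  · refine le_trans ?_ h4
    set C2 : (Fin 2 → X) → (Fin 2 → X) → ℝ := fun z z' => if ∀ k l, Adj (z k) (z' l) then 1 else 0
    set C : (Fin r → X) → (Fin r → X) → ℝ := fun y y' =>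
      if ∃ k l, ∀ i j, Adj (pr τ (y, k) i) (pr τ (y', l) j) then 1 else 0
    have hle : ∀ q q', C2 (pr τ q) (pr τ q') ≤ C q.1 q'.1 := by
      intro q q'
      simp only [C2, C]
      split_ifs with a b
      · exact le_rfl
      · exact absurd ⟨q.2, q'.2, a⟩ b
      · exact zero_le_one
      · exact le_rfl
    calc _ = ∑ z, push (pr τ) P z * ∑ z', push (pr τ) P z' * C2 z z' := by
          refine sum_congr rfl fun z _ => ?_
          rw [mul_sum]
          refine sum_congr rfl fun z' _ => ?_
          simp only [C2]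
          split_ifs <;> simp
      _ = ∑ q, P q * ∑ q', P q' * C2 (pr τ q) (pr τ q') := by
          rw [sum_push]
          exact sum_congr rfl fun q _ => by rw [sum_push]
      _ ≤ ∑ q, P q * ∑ q', P q' * C q.1 q'.1 :=
          sum_le_sum fun q _ => mul_le_mul_of_nonneg_left
            (sum_le_sum fun q' _ => mul_le_mul_of_nonneg_left (hle q q') (hP0 q')) (hP0 q)
      _ = ∑ y, ν y * ∑ y', ν y' * C y y' := by
          rw [← hconst fun y => ∑ y', ν y' * C y y']
          exact sum_congr rfl fun q _ => by rw [hconst fun y' => C q.1 y']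
      _ = _ := by
          refine sum_congr rfl fun y _ => ?_
          rw [mul_sum]
          refine sum_congr rfl fun y' _ => ?_
          simp only [C]
          split_ifs <;> simp
  · refine le_trans (le_of_eq (sum_congr rfl fun x _ => ?_)) h5
    congr 2
    unfold Samp.marg
    have e : ∀ i : Fin 2, ∑ z, (if z i = x then push (pr τ) P z else 0)
        = ∑ k, ∑ y, (if pr τ (y, k) i = x then ν y else 0) / r := by
      intro i
      have := sum_push (pr τ) P fun z => if z i = x then (1 : ℝ) else 0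
      simp only [mul_ite, mul_one, mul_zero] at this
      rw [this, Fintype.sum_prod_type_right]
      refine sum_congr rfl fun k _ => sum_congr rfl fun y _ => ?_
      split_ifs <;> simp [hP]
    rw [Fin.sum_univ_two, e, e]
    have e2 : ∑ k, ∑ y, (if pr τ (y, k) 1 = x then ν y else 0) / r
        = ∑ k, ∑ y, (if y k = x then ν y else 0) / r :=
      Equiv.sum_comp τ fun k => ∑ y : Fin r → X, (if y k = x then ν y else 0) / r
    have e3 : ∑ k, ∑ y, (if pr τ (y, k) 0 = x then ν y else 0) / r
        = ∑ k, ∑ y, (if y k = x then ν y else 0) / r := rfl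
    rw [e2, e3]
    simp only [← sum_div]
    push_cast
    field_simp
    ring

end Vale.Agent.N060F
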