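import Mathlib

/-!
# P060 / N060F: from a fractional matching to equal tiles

A fractional matching which covers almost all vertices gives a permutation moving almost every vertex to a neighbour
(Hall), then disjoint short cycles and edges covering almost all vertices, then `m` disjoint tuples of one type.
-/

set_option autoImplicit false

open Finset Function

namespace Vale.Agent.N060F

open scoped Classical

/-- Hall's theorem with deficiency, from a fractional matching of the bipartite double cover. -/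
lemma hall_perm {n : ℕ} (R : Fin n → Fin n → Prop) (w : Fin n → Fin n → ℝ) (h0 : ∀ x y, 0 ≤ w x y)
    (hR : ∀ x y, w x y ≠ 0 → R x y) (hrow : ∀ x, ∑ y, w x y ≤ 1) (hcol : ∀ y, ∑ x, w x y ≤ 1)
    {d : ℕ} (htot : (n : ℝ) ≤ ∑ x, ∑ y, w x y + d) :
    ∃ π : Equiv.Perm (Fin n), (univ.filter fun v => ¬ R v (π v)).card ≤ d := by
  set t : Fin n → Finset (Fin n ⊕ Fin d) := fun v => (univ.filter (R v)).disjSum univ with ht
  have hall : ∀ S : Finset (Fin n), S.card ≤ (S.biUnion t).card := by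
    intro S
    rcases S.eq_empty_or_nonempty with rfl | ⟨v0, hv0⟩
    · simp
    set N : Finset (Fin n) := univ.filter fun y => ∃ x ∈ S, R x y with hN
    have hsub : N.disjSum (univ : Finset (Fin d)) ⊆ S.biUnion t := by
      intro z hz
      rw [mem_biUnion]
      rcases z with y | y
      · rw [inl_mem_disjSum, hN, mem_filter] at hz
        obtain ⟨x, hx, hxy⟩ := hz.2
        exact ⟨x, hx, by simp [ht, hxy]⟩
      · exact ⟨v0, hv0, by simp [ht]⟩
    refine le_trans ?_ (card_le_card hsub)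
    rw [card_disjSum, card_univ, Fintype.card_fin]
    have h1 : ∑ x ∈ S, ∑ y, w x y ≤ N.card := by
      rw [sum_comm]
      have e : ∑ y, ∑ x ∈ S, w x y = ∑ y ∈ N, ∑ x ∈ S, w x y := by
        symm
        refine sum_subset (subset_univ _) fun y _ hy => sum_eq_zero fun x hx => ?_
        by_contra hne
        exact hy (by rw [hN, mem_filter]; exact ⟨mem_univ _, x, hx, hR _ _ hne⟩)
      rw [e]
      calc ∑ y ∈ N, ∑ x ∈ S, w x y ≤ ∑ _y ∈ N, (1 : ℝ) :=
            sum_le_sum fun y _ => (sum_le_sum_of_subset_of_nonneg (subset_univ _)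
              fun x _ _ => h0 x y).trans (hcol y)
        _ = N.card := by simp
    have h2 : ∑ x ∈ Sᶜ, ∑ y, w x y ≤ (Sᶜ.card : ℝ) := by
      calc ∑ x ∈ Sᶜ, ∑ y, w x y ≤ ∑ _x ∈ Sᶜ, (1 : ℝ) := sum_le_sum fun x _ => hrow x
        _ = _ := by simp
    have h3 := sum_add_sum_compl S fun x => ∑ y, w x y
    have h4 : (S.card : ℝ) + Sᶜ.card = n := by
      have := card_add_card_compl S
      rw [Fintype.card_fin] at this
      exact_mod_cast this
    have h5 : (S.card : ℝ) ≤ N.card + d := by linarith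
    exact_mod_cast h5
  obtain ⟨f, hf, hft⟩ := (Finset.all_card_le_biUnion_card_iff_exists_injective t).1 hall
  have hA : ∀ v : {v // ∃ y, f v = Sum.inl y}, ∃ y, f v.1 = Sum.inl y := fun v => v.2
  choose g hg using hA
  have hginj : Injective g := fun a b h => Subtype.ext (hf (by rw [hg, hg, h]))
  obtain ⟨π, hπ⟩ := Equiv.Perm.exists_extending_pair _ _ Subtype.val_injective hginj
  refine ⟨π, ?_⟩
  have hcard : ((∅ : Finset (Fin n)).disjSum (univ : Finset (Fin d))).card = d := by simp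
  rw [← hcard]
  refine card_le_card_of_injOn f (fun v hv => ?_) hf.injOn
  rw [mem_coe, mem_filter] at hv
  rcases hfv : f v with y | y
  · exfalso
    apply hv.2
    have h1 := hπ ⟨v, y, hfv⟩
    have h2 := hg ⟨v, y, hfv⟩
    have h3 := hft v
    simp only at h1 h2
    rw [h2] at h3
    rw [h1]
    simpa [ht] using h3
  · simp

section heads

variable {n : ℕ} (π : Equiv.Perm (Fin n))

lemma per (v : Fin n) : v ∈ periodicPts π := π.injective.mem_periodicPts v

/-- Points of one orbit are reachable from each other. -/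
lemma reach {v u : Fin n} {k l : ℕ} (h : π^[k] v = π^[l] u) : ∃ j, π^[j] v = u := by
  have hp := minimalPeriod_pos_of_mem_periodicPts (per π u)
  refine ⟨l * (minimalPeriod π u - 1) + k, ?_⟩
  rw [iterate_add_apply, h, ← iterate_add_apply]
  have e : l * (minimalPeriod π u - 1) + l = minimalPeriod π u * l := by
    obtain ⟨q, hq⟩ : ∃ q, minimalPeriod π u = q + 1 := ⟨_, (Nat.succ_pred_eq_of_pos hp).symm⟩
    rw [hq]; simp; ring
  rw [e]
  exact ((isPeriodicPt_minimalPeriod π u).mul_const l).eq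

/-- The least point of its orbit. -/
def IsMin (v : Fin n) : Prop := ∀ k, v ≤ π^[k] v

lemma isMin_inj {v u : Fin n} (hv : IsMin π v) (hu : IsMin π u) {k l : ℕ}
    (hk : k < minimalPeriod π v) (hl : l < minimalPeriod π u) (h : π^[k] v = π^[l] u) :
    v = u ∧ k = l := by
  obtain ⟨i, hi⟩ := reach π h
  obtain ⟨j, hj⟩ := reach π h.symm
  have e : v = u := le_antisymm (hi ▸ hv i) (hj ▸ hu j)
  subst e
  exact ⟨rfl, (iterate_eq_iterate_iff_of_lt_minimalPeriod hk hl).1 h⟩

lemma exists_isMin (u : Fin n) : ∃ v k, IsMin π v ∧ k < minimalPeriod π v ∧ π^[k] v = u := by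
  obtain ⟨v, hv, hmin⟩ := (univ.filter fun x => ∃ j, π^[j] u = x).exists_min_image id
    ⟨u, mem_filter.2 ⟨mem_univ _, 0, rfl⟩⟩
  obtain ⟨j, hj⟩ := (mem_filter.1 hv).2
  obtain ⟨k, hk⟩ := reach π (v := v) (u := u) (k := 0) (l := j) hj.symm
  refine ⟨v, k % minimalPeriod π v, fun i => hmin _ (mem_filter.2 ⟨mem_univ _, i + j, ?_⟩),
    Nat.mod_lt _ (minimalPeriod_pos_of_mem_periodicPts (per π v)), ?_⟩
  · rw [iterate_add_apply, hj]
  · rw [iterate_mod_minimalPeriod_eq, hk]

/-- Disjoint short cycles and edges which cover almost all points. -/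
lemma heads (R : Fin n → Fin n → Prop) (hs : ∀ x y, R x y → R y x) {L : ℕ}
    (hL : 2 ≤ L) : ∃ (H : Finset (Fin n)) (len : Fin n → ℕ), (∀ v ∈ H, len v ≤ L) ∧
      (∀ v ∈ H, ∀ u ∈ H, ∀ k < len v, ∀ l < len u, π^[k] v = π^[l] u → v = u ∧ k = l) ∧
      (∀ v ∈ H, ∀ k < len v, R (π^[k] v) (π^[(k + 1) % len v] v)) ∧
      n ≤ ∑ v ∈ H, len v + (univ.filter fun v => ¬ R v (π v)).card + n / L := by
  set C : Finset (Fin n) := univ.filter fun v => IsMin π v ∧ L < minimalPeriod π v with hC
  have hCc : C.card ≤ n / L := by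
    rw [Nat.le_div_iff_mul_le (by omega)]
    have := card_le_card_of_injOn (s := C ×ˢ range L) (t := univ) (fun q => π^[q.2] q.1)
      (fun _ _ => mem_univ _) (by
        rintro ⟨v, k⟩ h1 ⟨u, l⟩ h2 h
        rw [mem_coe, mem_product, hC, mem_filter, mem_range] at h1 h2
        obtain ⟨e1, e2⟩ := isMin_inj π h1.1.2.1 h2.1.2.1 (h1.2.trans h1.1.2.2) (h2.2.trans h2.1.2.2) h
        exact Prod.ext e1 e2)
    simpa using this
  set B : Finset (Fin n) := (univ.filter fun v => ¬ R v (π v)) ∪ C with hB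
  have hgood : ∀ v, v ∉ B → R v (π v) := fun v hv => by
    by_contra h
    exact hv (mem_union_left _ (mem_filter.2 ⟨mem_univ _, h⟩))
  set P : Fin n → Prop := fun v => ∃ k, π^[k] v ∈ B with hP
  have hPit : ∀ v k, P (π^[k] v) ↔ P v := by
    intro v k
    constructor
    · rintro ⟨j, hj⟩
      exact ⟨j + k, by rw [iterate_add_apply]; exact hj⟩
    · rintro ⟨j, hj⟩
      obtain ⟨i, hi⟩ := reach π (v := π^[k] v) (u := v) (k := 0) (l := k) rfl
      exact ⟨j + i, by rw [iterate_add_apply, hi]; exact hj⟩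
  set t : Fin n → ℕ := fun v => if h : P v then Nat.find h else 0 with ht
  have ht0 : ∀ v, P v → (t v = 0 ↔ v ∈ B) := fun v hv => by
    simp only [ht, dif_pos hv, Nat.find_eq_zero, iterate_zero, id]
  have ht1 : ∀ v, P v → v ∉ B → t v = t (π v) + 1 := fun v hv hvB => by
    have hv' : P (π v) := (hPit v 1).2 hv
    simp only [ht, dif_pos hv, dif_pos hv']
    exact Nat.find_comp_succ hv hv' hvB
  set H : Finset (Fin n) := univ.filter fun v => (P v ∧ t v % 2 = 1) ∨ (¬ P v ∧ IsMin π v) with hH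
  set len : Fin n → ℕ := fun v => if P v then 2 else minimalPeriod π v with hlen
  have hmem : ∀ v, v ∈ H ↔ (P v ∧ t v % 2 = 1) ∨ (¬ P v ∧ IsMin π v) := fun v => by simp [hH]
  have hnB : ∀ v, P v → t v % 2 = 1 → v ∉ B := fun v hv h1 hB' => by
    have := (ht0 v hv).2 hB'
    omega
  refine ⟨H, len, fun v hv => ?_, fun v hv u hu k hk l hl h => ?_, fun v hv k hk => ?_, ?_⟩
  · rcases (hmem v).1 hv with h | h
    · simp only [hlen, if_pos h.1]; exact hL
    · simp only [hlen, if_neg h.1]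
      by_contra hlt
      exact h.1 ⟨0, mem_union_right _ (mem_filter.2 ⟨mem_univ _, h.2, not_le.1 hlt⟩)⟩
  · have hPP : P v ↔ P u := by rw [← hPit v k, h, hPit]
    rcases (hmem v).1 hv with h1 | h1 <;> rcases (hmem u).1 hu with h2 | h2
    · simp only [hlen, if_pos h1.1, if_pos h2.1] at hk hl
      have e1 := ht1 v h1.1 (hnB v h1.1 h1.2)
      have e2 := ht1 u h2.1 (hnB u h2.1 h2.2)
      have e3 := h1.2
      have e4 := h2.2
      interval_cases k <;> interval_cases l
      · exact ⟨h, rfl⟩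
      · have h' : v = π u := h
        rw [← h'] at e2; omega
      · have h' : π v = u := h
        rw [h'] at e1; omega
      · exact ⟨π.injective h, rfl⟩
    · exact absurd (hPP.1 h1.1) h2.1
    · exact absurd (hPP.2 h2.1) h1.1
    · simp only [hlen, if_neg h1.1, if_neg h2.1] at hk hl
      exact isMin_inj π h1.2 h2.2 hk hl h
  · rcases (hmem v).1 hv with h1 | h1
    · simp only [hlen, if_pos h1.1] at hk ⊢
      have e := hgood v (hnB v h1.1 h1.2)
      interval_cases k
      · exact e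
      · exact hs _ _ e
    · simp only [hlen, if_neg h1.1]
      rw [iterate_mod_minimalPeriod_eq, iterate_succ_apply']
      exact hgood _ fun hb => h1.1 ⟨k, hb⟩
  · have hsub : (univ : Finset (Fin n)) ⊆
        (H.biUnion fun v => (range (len v)).image fun k => π^[k] v) ∪ B.image π := by
      intro u _
      rw [mem_union, mem_biUnion]
      by_cases hu : P u
      · by_cases h1 : t u % 2 = 1
        · left
          exact ⟨u, (hmem u).2 (Or.inl ⟨hu, h1⟩), mem_image.2 ⟨0, by simp [hlen, hu], rfl⟩⟩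
        · obtain ⟨v, rfl⟩ := π.surjective u
          by_cases hvB : v ∈ B
          · exact Or.inr (mem_image_of_mem _ hvB)
          · have hv : P v := (hPit v 1).1 hu
            have := ht1 v hv hvB
            left
            exact ⟨v, (hmem v).2 (Or.inl ⟨hv, by omega⟩), mem_image.2 ⟨1, by simp [hlen, hv], rfl⟩⟩
      · obtain ⟨v, k, h1, h2, rfl⟩ := exists_isMin π u
        have hv : ¬ P v := fun h => hu ((hPit v k).2 h)
        left
        exact ⟨v, (hmem v).2 (Or.inr ⟨hv, h1⟩), mem_image.2 ⟨k, by simp [hlen, hv, h2], rfl⟩⟩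
    have h1 := (card_le_card hsub).trans (card_union_le _ _)
    rw [card_univ, Fintype.card_fin] at h1
    have h2 : (H.biUnion fun v => (range (len v)).image fun k => π^[k] v).card ≤ ∑ v ∈ H, len v :=
      card_biUnion_le.trans (sum_le_sum fun v _ => card_image_le.trans (card_range _).le)
    have h3 : (B.image π).card ≤ (univ.filter fun v => ¬ R v (π v)).card + C.card :=
      card_image_le.trans (card_union_le _ _)
    omega

end heads

/-- Equal tiles from disjoint short cycles. -/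
lemma tiles {n : ℕ} (R : Fin n → Fin n → Prop) (H : Finset (Fin n)) (len : Fin n → ℕ)
    (c : Fin n → ℕ → Fin n) {L : ℕ} (hL : ∀ v ∈ H, len v ≤ L)
    (hinj : ∀ v ∈ H, ∀ u ∈ H, ∀ k < len v, ∀ l < len u, c v k = c u l → v = u ∧ k = l)
    (hR : ∀ v ∈ H, ∀ k < len v, R (c v k) (c v ((k + 1) % len v))) {m : ℕ} (hm : 0 < m) :
    ∃ (r : ℕ) (τ : Equiv.Perm (Fin r)) (e : Fin m → Fin r → Fin n),
      (∀ i k i' k', e i k = e i' k' → i = i' ∧ k = k') ∧ (∀ i k, R (e i k) (e i (τ k))) ∧
      ∑ v ∈ H, len v ≤ m * r + m * (L + 1) ^ 2 := by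
  set Hj : Fin (L + 1) → Finset (Fin n) := fun j => H.filter fun v => len v = j with hHj
  set a : Fin (L + 1) → ℕ := fun j => (Hj j).card / m with ha
  have hb : ∀ j, ∃ b : Fin m × Fin (a j) → Fin n, Injective b ∧ ∀ q, b q ∈ Hj j := by
    intro j
    have : Fintype.card (Fin m × Fin (a j)) ≤ Fintype.card (Hj j) := by
      simp only [Fintype.card_prod, Fintype.card_fin, Fintype.card_coe, ha]
      exact Nat.mul_div_le _ _
    obtain ⟨f⟩ := Function.Embedding.nonempty_of_card_le this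
    exact ⟨fun q => (f q).1, Subtype.val_injective.comp f.injective, fun q => (f q).2⟩
  choose b hbi hbm using hb
  have hbH : ∀ j q, b j q ∈ H := fun j q => (mem_filter.1 (hbm j q)).1
  have hbl : ∀ j q, len (b j q) = j := fun j q => (mem_filter.1 (hbm j q)).2
  set I : Type := Σ j : Fin (L + 1), Fin (a j) × Fin j with hI
  set τ0 : I → I := fun q => ⟨q.1, q.2.1, ⟨(q.2.2 + 1) % q.1, Nat.mod_lt _ q.2.2.pos⟩⟩ with hτ0
  have hτ0i : Injective τ0 := by
    rintro ⟨j, t, k⟩ ⟨j', t', k'⟩ h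
    have h1 : j = j' := congrArg Sigma.fst h
    subst h1
    have h2 := eq_of_heq (Sigma.mk.inj_iff.1 h).2
    have h3 : t = t' := congrArg Prod.fst h2
    have h4 : ((k : ℕ) + 1) % j = ((k' : ℕ) + 1) % j := congrArg (fun x => (x.2 : ℕ)) h2
    have h5 : (k : ℕ) % j = (k' : ℕ) % j := Nat.ModEq.add_right_cancel' 1 h4
    rw [Nat.mod_eq_of_lt k.2, Nat.mod_eq_of_lt k'.2] at h5
    rw [h3, Fin.ext h5]
  set φ : I ≃ Fin (Fintype.card I) := Fintype.equivFin I with hφ
  set e0 : Fin m → I → Fin n := fun i q => c (b q.1 (i, q.2.1)) q.2.2 with he0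
  refine ⟨Fintype.card I, φ.permCongr (Equiv.ofBijective τ0 (Finite.injective_iff_bijective.1 hτ0i)),
    fun i k => e0 i (φ.symm k), fun i k i' k' h => ?_, fun i k => ?_, ?_⟩
  · have key : ∀ q q' : I, e0 i q = e0 i' q' → i = i' ∧ q = q' := by
      rintro ⟨j, t, k⟩ ⟨j', t', k'⟩ h
      obtain ⟨h1, h2⟩ := hinj _ (hbH j (i, t)) _ (hbH j' (i', t')) k (by rw [hbl]; exact k.2) k'
        (by rw [hbl]; exact k'.2) h
      have h3 : j = j' := Fin.ext (by rw [← hbl j (i, t), h1, hbl])
      subst h3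
      have h4 := hbi j h1
      rw [Prod.mk.injEq] at h4
      exact ⟨h4.1, by rw [h4.2, Fin.ext h2]⟩
    obtain ⟨h1, h2⟩ := key _ _ h
    exact ⟨h1, φ.symm.injective h2⟩
  · simp only [Equiv.permCongr_apply, Equiv.symm_apply_apply, Equiv.ofBijective_apply]
    obtain ⟨j, t, k⟩ := φ.symm k
    have := hR _ (hbH j (i, t)) k (by rw [hbl]; exact k.2)
    rw [hbl] at this
    exact this
  · have h1 : Fintype.card I = ∑ j : Fin (L + 1), a j * j := by simp [hI]
    have h2 : ∑ v ∈ H, len v = ∑ j : Fin (L + 1), (Hj j).card * j := by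
      rw [← sum_fiberwise_of_maps_to (s := H) (t := (univ : Finset (Fin (L + 1))))
        (g := fun v => (⟨min (len v) L, by omega⟩ : Fin (L + 1))) (fun _ _ => mem_univ _)]
      refine sum_congr rfl fun j _ => ?_
      have e : (H.filter fun v => (⟨min (len v) L, by omega⟩ : Fin (L + 1)) = j) = Hj j := by
        refine filter_congr fun v hv => ?_
        rw [Fin.ext_iff]
        simp [min_eq_left (hL v hv)]
      rw [e, sum_congr rfl fun v hv => (mem_filter.1 hv).2, sum_const, smul_eq_mul]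
    rw [h1, h2, mul_sum]
    have h3 : m * (L + 1) ^ 2 = ∑ _j : Fin (L + 1), m * (L + 1) := by simp; ring
    rw [h3, ← sum_add_distrib]
    refine sum_le_sum fun j _ => ?_
    have h4 : (Hj j).card ≤ m * a j + m := by
      have := Nat.div_add_mod (Hj j).card m
      have := Nat.mod_lt (Hj j).card hm
      simp only [ha]; omega
    have h5 : (j : ℕ) ≤ L + 1 := j.2.le
    calc (Hj j).card * j ≤ (m * a j + m) * j := Nat.mul_le_mul_right _ h4
      _ = m * (a j * j) + m * j := by ring
      _ ≤ _ := Nat.add_le_add_left (Nat.mul_le_mul_left _ h5) _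

/-- **Tiling.** A fractional matching of a symmetric relation gives `m` disjoint tuples of one type. -/
theorem tiling {n : ℕ} (R : Fin n → Fin n → Prop) (hs : ∀ x y, R x y → R y x)
    (w : Fin n → Fin n → ℝ) (h0 : ∀ x y, 0 ≤ w x y)
    (hR : ∀ x y, w x y ≠ 0 → R x y) (hrow : ∀ x, ∑ y, w x y ≤ 1) (hcol : ∀ y, ∑ x, w x y ≤ 1)
    {d : ℕ} (htot : (n : ℝ) ≤ ∑ x, ∑ y, w x y + d) {L m : ℕ} (hL : 2 ≤ L) (hm : 0 < m) :
    ∃ (r : ℕ) (τ : Equiv.Perm (Fin r)) (e : Fin m → Fin r → Fin n),
      (∀ i k i' k', e i k = e i' k' → i = i' ∧ k = k') ∧ (∀ i k, R (e i k) (e i (τ k))) ∧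
      n ≤ m * r + m * (L + 1) ^ 2 + d + n / L := by
  obtain ⟨π, hπ⟩ := hall_perm R w h0 hR hrow hcol htot
  obtain ⟨H, len, h1, h2, h3, h4⟩ := heads π R hs hL
  obtain ⟨r, τ, e, g1, g2, g3⟩ := tiles R H len (fun v k => π^[k] v) h1 h2 h3 hm
  exact ⟨r, τ, e, g1, g2, by omega⟩

end Vale.Agent.N060F
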