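import Vale.Agent.N060F.Defs
import Vale.Agent.N060F.Tile
import Vale.Agent.N060F.Pair

/-!
# P060 / N060F: structure of a large fractional clique minor

A large clique, or `m` disjoint tuples of one type whose pairs are edges which touch each other.
-/

set_option autoImplicit false

open scoped Classical

noncomputable section

namespace Vale.Agent.N060F

open Vale.Agent.P060.HW Finset

lemma sum_card_mul {V : Type} [Fintype V] [∀ v : V, DecidablePred fun B : Finset V => v ∈ B]
    (f : Finset V → ℝ) :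
    ∑ B, f B * (B.card : ℝ) = ∑ v, ∑ B with v ∈ B, f B := by
  simp_rw [sum_filter]
  rw [sum_comm]
  refine sum_congr rfl fun B _ => ?_
  rw [← sum_filter, sum_const, nsmul_eq_mul, mul_comm]
  congr 3
  ext v
  simp

lemma FracMinor.cov {V : Type} [Fintype V] {G : SimpleGraph V} {w : Finset V → ℝ} (hw : FracMinor G w)
    (v : V) [DecidablePred fun B : Finset V => v ∈ B] : ∑ B with v ∈ B, w B ≤ 1 :=
  le_trans (le_of_eq (by congr!)) (hw.2.2.2 v)

lemma FracMinor.pos {V : Type} [Fintype V] {G : SimpleGraph V} {w : Finset V → ℝ} (hw : FracMinor G w)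
    {B : Finset V} (hB : w B ≠ 0) : 1 ≤ B.card := by
  obtain ⟨x, hx, -⟩ := hw.2.2.1 B B hB hB
  exact card_pos.2 ⟨x, hx⟩

lemma FracMinor.sum_card {V : Type} [Fintype V] {G : SimpleGraph V} {w : Finset V → ℝ}
    (hw : FracMinor G w) : ∑ B, w B * (B.card : ℝ) ≤ Fintype.card V := by
  rw [sum_card_mul]
  calc _ ≤ ∑ _v : V, (1 : ℝ) := sum_le_sum fun v _ => hw.2.2.2 v
    _ = _ := by simp

/-- The tuples of the second case. -/
def Tiles {X : Type*} (Adj : X → X → Prop) {n : ℕ} (s : Fin n → X) (m : ℕ) {r : ℕ}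
    (τ : Equiv.Perm (Fin r)) (e : Fin m → Fin r → Fin n) : Prop :=
  (∀ i k i' k', e i k = e i' k' → i = i' ∧ k = k') ∧
    (∀ i k, ¬ Adj (s (e i k)) (s (e i (τ k)))) ∧
    ∀ i j, i ≠ j → ¬ ∃ k l, ∀ a b, Adj (pr τ (fun k => s (e i k), k) a) (pr τ (fun k => s (e j k), l) b)

lemma familiesF {X : Type*} {n : ℕ} (Adj : X → X → Prop) (hsym : ∀ x y, Adj x y → Adj y x)
    (s : Fin n → X) {w : Finset (Fin n) → ℝ} (hw : FracMinor (Gs Adj hsym s) w) {p d L m : ℕ}
    (hL : 2 ≤ L) (hm : 0 < m) (ht : 3 * (n : ℝ) + 4 * p ≤ 6 * ∑ B, w B + d) :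
    (∃ e : Fin p → Fin 1 → Fin n, (∀ i k i' k', e i k = e i' k' → i = i' ∧ k = k') ∧
      ∀ i j, i ≠ j → ¬ Adj (s (e i 0)) (s (e j 0))) ∨
    ∃ (r : ℕ) (τ : Equiv.Perm (Fin r)) (e : Fin m → Fin r → Fin n), (∀ k, τ k ≠ k) ∧
      n ≤ m * r + m * (L + 1) ^ 2 + d + n / L ∧ Tiles Adj s m τ e := by
  obtain ⟨h0, hconn, htouch, -⟩ := id hw
  have hcov : ∀ v, ∑ B with v ∈ B, w B ≤ 1 := fun v => hw.cov v
  set Q : Finset (Fin n) := univ.filter fun v => w {v} ≠ 0 with hQ
  by_cases hp : p ≤ Q.card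
  · left
    obtain ⟨T, hT, hTc⟩ := exists_subset_card_eq hp
    set f : Fin p → Fin n := fun i => (T.equivFinOfCardEq hTc).symm i with hf
    have hfi : Function.Injective f := fun i j hij =>
      (T.equivFinOfCardEq hTc).symm.injective (Subtype.ext hij)
    have hfQ : ∀ i, w {f i} ≠ 0 := fun i =>
      (mem_filter.1 (hT ((T.equivFinOfCardEq hTc).symm i).2)).2
    refine ⟨fun i _ => f i, fun i k i' k' h => ⟨hfi h, Subsingleton.elim _ _⟩, fun i j hij => ?_⟩
    obtain ⟨x, hx, y, hy, hxy⟩ := htouch _ _ (hfQ i) (hfQ j)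
    rw [mem_singleton] at hx hy
    subst hx hy
    rcases hxy with h | h
    · exact absurd (hfi h) hij
    · exact h.2
  right
  set w2 : Finset (Fin n) → ℝ := fun B => if B.card = 2 then w B else 0 with hw2
  set u : Fin n → Fin n → ℝ := fun x y => if x = y then 0 else w {x, y} with hu
  have hus : ∀ x y, u x y = u y x := fun x y => by
    simp only [hu, eq_comm (a := x), pair_comm x y]
  have hrow : ∀ x, ∑ y, u x y = ∑ B with x ∈ B, w2 B := by
    intro x
    have e1 : ∑ y, u x y = ∑ y ∈ univ.erase x, w {x, y} := by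
      rw [← add_sum_erase _ _ (mem_univ x)]
      simp only [hu, if_pos, zero_add]
      exact sum_congr rfl fun y hy => if_neg (ne_of_mem_erase hy).symm
    have e2 : ∑ B with x ∈ B, w2 B = ∑ B ∈ (univ.erase x).image fun y => ({x, y} : Finset (Fin n)), w B := by
      simp only [hw2]
      rw [← sum_filter]
      refine sum_congr ?_ fun _ _ => rfl
      ext B
      simp only [mem_filter, mem_univ, true_and, mem_image, mem_erase, and_true, card_eq_two]
      constructor
      · rintro ⟨hx, a, b, hab, rfl⟩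
        rw [mem_insert, mem_singleton] at hx
        rcases hx with rfl | rfl
        · exact ⟨b, hab.symm, rfl⟩
        · exact ⟨a, hab, pair_comm _ _⟩
      · rintro ⟨y, hy, rfl⟩
        exact ⟨by simp, x, y, hy.symm, rfl⟩
    rw [e1, e2, sum_image]
    intro y hy y' hy' h
    have hy1 : y ≠ x := ne_of_mem_erase hy
    have : y ∈ ({x, y'} : Finset (Fin n)) := by
      have h' : ({x, y} : Finset (Fin n)) = {x, y'} := h
      rw [← h']; simp
    simpa [hy1] using this
  have hrow1 : ∀ x, ∑ y, u x y ≤ 1 := fun x => by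
    rw [hrow]
    refine le_trans (sum_le_sum fun B _ => ?_) (hcov x)
    simp only [hw2]
    split_ifs
    exacts [le_rfl, h0 B]
  have htot : ∑ x, ∑ y, u x y = 2 * ∑ B, w2 B := by
    simp_rw [hrow]
    rw [← sum_card_mul, mul_sum]
    refine sum_congr rfl fun B _ => ?_
    simp only [hw2]
    split_ifs with h
    · rw [h]; push_cast; ring
    · simp
  have hW1 : ∑ B, (if B.card = 1 then w B else 0) ≤ Q.card := by
    have e1 : ∑ B, (if B.card = 1 then w B else 0)
        = ∑ B, (if B.card = 1 then w B else 0) * (B.card : ℝ) := by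
      refine sum_congr rfl fun B _ => ?_
      split_ifs with h
      · rw [h]; simp
      · simp
    rw [e1, sum_card_mul, card_eq_sum_ones, Nat.cast_sum, hQ, sum_filter]
    refine sum_le_sum fun v _ => ?_
    split_ifs with hv
    · refine le_trans (sum_le_sum fun B _ => ?_) ((hcov v).trans (by simp))
      split_ifs
      exacts [le_rfl, h0 B]
    · refine le_of_eq (sum_eq_zero fun B hB => ?_)
      split_ifs with h
      · obtain ⟨a, rfl⟩ := card_eq_one.1 h
        have : v = a := by simpa using hB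
        rw [← this]
        exact not_not.1 hv
      · rfl
  have hcount : 3 * ∑ B, w B ≤ ∑ B, w B * (B.card : ℝ) + 2 * ∑ B, (if B.card = 1 then w B else 0)
      + ∑ B, w2 B := by
    rw [mul_sum, mul_sum, ← sum_add_distrib, ← sum_add_distrib]
    refine sum_le_sum fun B _ => ?_
    simp only [hw2]
    by_cases hB : w B = 0
    · simp [hB]
    have h1 := hw.pos hB
    have h2 := h0 B
    split_ifs with a b b
    · omega
    · rw [a]; push_cast; linarith
    · rw [b]; push_cast; linarith
    · have : (3 : ℝ) ≤ B.card := by exact_mod_cast (by omega : 3 ≤ B.card)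
      nlinarith
  have hn := hw.sum_card
  rw [Fintype.card_fin] at hn
  have hpQ : (Q.card : ℝ) ≤ p := by exact_mod_cast (not_le.1 hp).le
  obtain ⟨r, τ, e, g1, g2, g3⟩ := tiling (fun x y => u x y ≠ 0) (fun x y h => by rwa [hus]) u
    (fun x y => by simp only [hu]; split_ifs; exacts [le_rfl, h0 _]) (fun _ _ h => h) hrow1
    (fun y => by simp_rw [hus _ y]; exact hrow1 y) (d := d) (by rw [htot]; linarith) hL hm
  have g4 : ∀ i k, e i k ≠ e i (τ k) ∧ w {e i k, e i (τ k)} ≠ 0 := by
    intro i k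
    have := g2 i k
    simp only [hu] at this
    split_ifs at this with h
    · exact absurd rfl this
    · exact ⟨h, this⟩
  refine ⟨r, τ, e, fun k hk => (g4 ⟨0, hm⟩ k).1 (by rw [hk]), g3, g1, fun i k => ?_, ?_⟩
  · exact (adj_of_connected_pair (Gs Adj hsym s) (g4 i k).1 (by simp) (by simp)
      (fun z hz => by simpa using hz) (hconn _ (g4 i k).2)).2
  · rintro i j hij ⟨k, l, h⟩
    obtain ⟨x, hx, y, hy, hxy⟩ := htouch _ _ (g4 i k).2 (g4 j l).2
    rw [mem_insert, mem_singleton] at hx hy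
    rcases hxy with rfl | hxy
    · rcases hx with rfl | rfl <;> rcases hy with hy | hy <;> exact hij (g1 _ _ _ _ hy).1
    · rcases hx with rfl | rfl <;> rcases hy with rfl | rfl
      exacts [hxy.2 (h 0 0), hxy.2 (h 0 1), hxy.2 (h 1 0), hxy.2 (h 1 1)]

/-- **Finite form of the dichotomy.** -/
theorem exists_sampF {X : Type*} [Fintype X] [Nonempty X] {n : ℕ} (Adj : X → X → Prop)
    (hsym : ∀ x y, Adj x y → Adj y x) (htri : ∀ x y z, Adj x y → Adj y z → Adj x z → False)
    {p d L m r₁ : ℕ} (hL : 2 ≤ L) (hm : 0 < m) (hr : n < m * r₁)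
    (hHad : ∀ G : SimpleGraph (Fin n), G.indepNum ≤ 2 →
      ∃ w, FracMinor G w ∧ 3 * (n : ℝ) + 4 * p ≤ 6 * ∑ B, w B + d) :
    (∃ D : Samp X n p 1, Fintype.card X ^ n ≤ 2 * D.S.card ∧
      ∀ s ∈ D.S, ∀ i j, i ≠ j → ¬ Adj (s (D.e s i 0)) (s (D.e s j 0))) ∨
    ∃ (r : ℕ) (τ : Equiv.Perm (Fin r)) (D : Samp X n m r), r < r₁ ∧ (∀ k, τ k ≠ k) ∧
      n ≤ m * r + m * (L + 1) ^ 2 + d + n / L ∧
      Fintype.card X ^ n ≤ 2 * Fintype.card (Σ r : Fin r₁, Equiv.Perm (Fin r)) * D.S.card ∧
      ∀ s ∈ D.S, Tiles Adj s m τ (D.e s) := by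
  set Q1 : (Fin n → X) → Prop := fun s => ∃ e : Fin p → Fin 1 → Fin n,
    (∀ i k i' k', e i k = e i' k' → i = i' ∧ k = k') ∧
      ∀ i j, i ≠ j → ¬ Adj (s (e i 0)) (s (e j 0)) with hQ1
  set T : Type := Σ r : Fin r₁, Equiv.Perm (Fin r) with hT
  set Q2 : T → (Fin n → X) → Prop := fun t s => ∃ e : Fin m → Fin t.1 → Fin n, (∀ k, t.2 k ≠ k) ∧
      n ≤ m * t.1 + m * (L + 1) ^ 2 + d + n / L ∧ Tiles Adj s m t.2 e with hQ2
  have hor : ∀ s, Q1 s ∨ ∃ t, Q2 t s := by
    intro s
    obtain ⟨w, hw, ht⟩ := hHad _ (Gs_indepNum Adj hsym htri s)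
    rcases familiesF Adj hsym s hw hL hm ht with h | ⟨r, τ, e, h1, h2, h3⟩
    · exact Or.inl h
    · have hinj : Function.Injective fun q : Fin m × Fin r => e q.1 q.2 := fun q q' h =>
        Prod.ext (h3.1 _ _ _ _ h).1 (h3.1 _ _ _ _ h).2
      have hc := Fintype.card_le_of_injective _ hinj
      simp only [Fintype.card_prod, Fintype.card_fin] at hc
      exact Or.inr ⟨⟨⟨r, lt_of_mul_lt_mul_left (hc.trans_lt hr) (Nat.zero_le _)⟩, τ⟩, e, h1, h2, h3⟩
  set S1 := univ.filter Q1
  set S2 : T → Finset (Fin n → X) := fun t => univ.filter (Q2 t)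
  have hcard : Fintype.card X ^ n ≤ S1.card + ∑ t, (S2 t).card := by
    have : (univ : Finset (Fin n → X)) ⊆ S1 ∪ univ.biUnion S2 := by
      intro s _
      rcases hor s with h | ⟨t, h⟩
      · exact mem_union_left _ (mem_filter.2 ⟨mem_univ _, h⟩)
      · exact mem_union_right _ (mem_biUnion.2 ⟨t, mem_univ _, mem_filter.2 ⟨mem_univ _, h⟩⟩)
    have h3 := (card_le_card this).trans (card_union_le _ _)
    rw [card_univ, Fintype.card_fun, Fintype.card_fin] at h3
    exact h3.trans (Nat.add_le_add_left card_biUnion_le _)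
  have hXpos : 0 < Fintype.card X ^ n := pow_pos Fintype.card_pos _
  rcases le_total (∑ t, (S2 t).card) S1.card with hle | hle
  · left
    have hS : Fintype.card X ^ n ≤ 2 * S1.card := by omega
    have hne : S1.Nonempty := card_pos.1 (by omega)
    have hmem : ∀ s ∈ S1, Q1 s := fun s hs => (mem_filter.1 hs).2
    refine ⟨⟨S1, hne, fun s => if h : Q1 s then h.choose else
      (hmem hne.choose hne.choose_spec).choose, ?_⟩, hS, ?_⟩
    · intro s hs i k i' k' h
      simp only [hmem s hs, dif_pos] at h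
      exact (hmem s hs).choose_spec.1 i k i' k' h
    · intro s hs i j hij
      have hs' : s ∈ S1 := hs
      simp only [hmem s hs', dif_pos]
      exact (hmem s hs').choose_spec.2 i j hij
  · right
    have hTne : (univ : Finset T).Nonempty := by
      by_contra h
      rw [not_nonempty_iff_eq_empty] at h
      rw [h, sum_empty] at hle hcard
      omega
    obtain ⟨t, -, ht⟩ := exists_max_image univ (fun t => (S2 t).card) hTne
    have hsum : ∑ t', (S2 t').card ≤ Fintype.card T * (S2 t).card := by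
      have := sum_le_card_nsmul univ (fun t' => (S2 t').card) _ ht
      simpa using this
    have hS : Fintype.card X ^ n ≤ 2 * Fintype.card T * (S2 t).card := by
      rw [mul_assoc]; omega
    have hne : (S2 t).Nonempty := by
      rw [← card_pos]
      by_contra h
      have : (S2 t).card = 0 := by omega
      rw [this] at hS
      omega
    have hmem : ∀ s ∈ S2 t, Q2 t s := fun s hs => (mem_filter.1 hs).2
    have h0 := (hmem hne.choose hne.choose_spec).choose_spec
    refine ⟨t.1, t.2, ⟨S2 t, hne, fun s => if h : Q2 t s then h.choose else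
      (hmem hne.choose hne.choose_spec).choose, ?_⟩, t.1.2, h0.1, h0.2.1, hS, ?_⟩
    · intro s hs i k i' k' h
      simp only [hmem s hs, dif_pos] at h
      exact (hmem s hs).choose_spec.2.2.1 i k i' k' h
    · intro s hs
      have hs' : s ∈ S2 t := hs
      simp only [hmem s hs', dif_pos]
      exact (hmem s hs').choose_spec.2.2

end Vale.Agent.N060F
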