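import Vale.Agent.N060F.Red

/-!
# P060 / N060F: the fractional parameters and the conclusion
-/

set_option autoImplicit false

open scoped Classical

noncomputable section

namespace Vale.Agent.N060F

open Finset

variable {V V' : Type}

lemma FracMinor.le_hadF [Fintype V] {G : SimpleGraph V} {w : Finset V → ℝ} (hw : FracMinor G w) :
    ∑ B, w B ≤ hadF G := by
  refine le_csSup ⟨Fintype.card V, ?_⟩ ⟨w, hw, rfl⟩
  rintro _ ⟨u, hu, rfl⟩
  refine le_trans (sum_le_sum fun B _ => ?_) hu.sum_card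
  by_cases hB : u B = 0
  · simp [hB]
  · exact le_mul_of_one_le_right (hu.1 B) (by exact_mod_cast hu.pos hB)

lemma fracMinor_zero [Fintype V] (G : SimpleGraph V) : FracMinor G fun _ => 0 :=
  ⟨fun _ => le_rfl, fun _ h => absurd rfl h, fun _ _ h => absurd rfl h, fun _ => by simp⟩

lemma hadF_le [Fintype V] {G : SimpleGraph V} {c : ℝ} (h : ∀ w, FracMinor G w → ∑ B, w B ≤ c) :
    hadF G ≤ c := by
  refine csSup_le ⟨_, _, fracMinor_zero G, rfl⟩ ?_
  rintro _ ⟨w, hw, rfl⟩
  exact h w hw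

/-- The image of a connected set under a map which sends edges to edges or points is connected. -/
lemma conn_image {G : SimpleGraph V} {G' : SimpleGraph V'} (f : V' → V)
    (hf : ∀ x y, G'.Adj x y → f x = f y ∨ G.Adj (f x) (f y)) {B : Set V'}
    (h : (G'.induce B).Connected) : (G.induce (f '' B)).Connected := by
  obtain ⟨x0⟩ := h.nonempty
  have : Nonempty (f '' B) := ⟨⟨f x0, x0, x0.2, rfl⟩⟩
  refine ⟨?_⟩
  rintro ⟨_, a, ha, rfl⟩ ⟨_, b, hb, rfl⟩
  have key : ∀ {x y : B} (_ : (G'.induce B).Walk x y),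
      (G.induce (f '' B)).Reachable ⟨f x, x, x.2, rfl⟩ ⟨f y, y, y.2, rfl⟩ := by
    intro x y p
    induction p with
    | nil => rfl
    | @cons u v _ huv _ ih =>
      refine SimpleGraph.Reachable.trans ?_ ih
      rcases hf u v huv with e | e
      · have : (⟨f u, u, u.2, rfl⟩ : f '' B) = ⟨f v, v, v.2, rfl⟩ := Subtype.ext e
        rw [this]
      · exact SimpleGraph.Adj.reachable e
  obtain ⟨p⟩ := h.preconnected ⟨a, ha⟩ ⟨b, hb⟩
  exact key p

/-- A clique minor upstairs is a fractional clique minor downstairs. -/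
lemma minor_le [Fintype V] [Fintype V'] {G : SimpleGraph V} {G' : SimpleGraph V'} (f : V' → V)
    (hf : ∀ x y, G'.Adj x y → f x = f y ∨ G.Adj (f x) (f y)) {r : ℕ} (hr : 0 < r)
    (hfib : ∀ v, (univ.filter fun x => f x = v).card ≤ r) {t : ℕ} (h : CliqueMinor G' t) :
    (t : ℝ) ≤ r * hadF G := by
  obtain ⟨B, h1, h2⟩ := h
  have hr' : (0 : ℝ) < r := by exact_mod_cast hr
  set A : Fin t → Finset V := fun i => (f '' B i).toFinset with hA
  have hAc : ∀ i, (A i : Set V) = f '' B i := fun i => by simp [hA]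
  have hAm : ∀ i, ∀ x ∈ B i, f x ∈ A i := fun i x hx => by
    rw [← mem_coe, hAc]; exact ⟨x, hx, rfl⟩
  set w : Finset V → ℝ := push A fun _ => 1 / (r : ℝ) with hw
  have hne : ∀ S, w S ≠ 0 → ∃ i, A i = S := by
    intro S hS
    obtain ⟨i, -, hi⟩ := exists_ne_zero_of_sum_ne_zero hS
    exact ⟨i, by by_contra h; exact hi (if_neg h)⟩
  have hF : FracMinor G w := by
    refine ⟨push_nonneg _ fun _ => by positivity, fun S hS => ?_, fun S S' hS hS' => ?_, fun v => ?_⟩
    · obtain ⟨i, rfl⟩ := hne S hS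
      rw [hAc]
      exact conn_image f hf (h1 i).2
    · obtain ⟨i, rfl⟩ := hne S hS
      obtain ⟨j, rfl⟩ := hne S' hS'
      by_cases hij : i = j
      · obtain ⟨x, hx⟩ := (h1 i).1
        exact ⟨f x, hAm i x hx, f x, hAm j x (hij ▸ hx), Or.inl rfl⟩
      · obtain ⟨x, hx, y, hy, hxy⟩ := (h2 i j hij).2
        exact ⟨f x, hAm i x hx, f y, hAm j y hy, hf x y hxy⟩
    · have e := sum_push A (fun _ => 1 / (r : ℝ)) fun S => if v ∈ S then (1 : ℝ) else 0
      simp only [mul_ite, mul_one, mul_zero] at e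
      rw [sum_filter, e, ← sum_filter, sum_const, nsmul_eq_mul, mul_one_div, div_le_one hr']
      have hx : ∀ i, ∃ x : Option V', v ∈ A i → ∃ y ∈ B i, f y = v ∧ x = some y := by
        intro i
        by_cases hi : v ∈ A i
        · rw [← mem_coe, hAc] at hi
          obtain ⟨y, hy, e⟩ := hi
          exact ⟨some y, fun _ => ⟨y, hy, e, rfl⟩⟩
        · exact ⟨none, fun h => absurd h hi⟩
      choose x hx using hx
      have := card_le_card_of_injOn (s := univ.filter fun i => v ∈ A i)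
        (t := (univ.filter fun y => f y = v).map Function.Embedding.some) x (fun i hi => by
          obtain ⟨y, -, e, e'⟩ := hx i (mem_filter.1 hi).2
          rw [e']
          simp [e]) (fun i hi j hj hij => by
          obtain ⟨y, hy, -, e⟩ := hx i (mem_filter.1 hi).2
          obtain ⟨y', hy', -, e'⟩ := hx j (mem_filter.1 hj).2
          rw [e, e', Option.some.injEq] at hij
          by_contra hne
          exact Set.disjoint_left.1 (h2 i j hne).1 hy (hij ▸ hy'))
      rw [card_map] at this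
      exact_mod_cast this.trans (hfib v)
  have e := sum_push A (fun _ => 1 / (r : ℝ)) fun _ => (1 : ℝ)
  have h3 := hF.le_hadF
  simp only [mul_one, sum_const, card_univ, Fintype.card_fin, nsmul_eq_mul, mul_one_div] at e
  rw [hw, e, div_le_iff₀ hr'] at h3
  linarith

lemma minor_had [Fintype V] (G : SimpleGraph V) : CliqueMinor G (had G) := by
  refine Nat.sSup_mem (s := {t | CliqueMinor G t}) ⟨0, fun i => i.elim0, fun i => i.elim0, fun i => i.elim0⟩
    ⟨Fintype.card V, ?_⟩
  rintro t ⟨B, h1, h2⟩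
  choose x hx using fun i => (h1 i).1
  have hinj : Function.Injective x := fun i j hij => by
    by_contra hne
    exact Set.disjoint_left.1 (h2 i j hne).1 (hx i) (hij ▸ hx j)
  simpa using Fintype.card_le_of_injective x hinj

lemma minor_le_hadF [Fintype V] {G : SimpleGraph V} {t : ℕ} (h : CliqueMinor G t) : (t : ℝ) ≤ hadF G := by
  have := minor_le (G := G) id (fun _ _ h => Or.inr h) one_pos
    (fun v => card_le_one.2 fun a ha b hb => (mem_filter.1 ha).2.trans (mem_filter.1 hb).2.symm) h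
  simpa using this

lemma had_blow [Fintype V] (G : SimpleGraph V) {r : ℕ} (hr : 0 < r) :
    (had (blow G r) : ℝ) ≤ r * hadF G := by
  refine minor_le Prod.fst (fun x y h => ?_) hr (fun v => ?_) (minor_had _)
  · rcases h.2 with (h | h) | (h | h)
    exacts [Or.inl h, Or.inr h, Or.inl h.symm, Or.inr h.symm]
  · have := card_le_card_of_injOn (s := univ.filter fun x : V × Fin r => x.1 = v) (t := univ) Prod.snd
      (fun _ _ => mem_univ _) fun a ha b hb h =>
        Prod.ext ((mem_filter.1 ha).2.trans (mem_filter.1 hb).2.symm) h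
    simpa using this

lemma chiF_le_sum [Fintype V] {G : SimpleGraph V} {w : Finset V → ℝ} (hw : FracColouring G w) :
    chiF G ≤ ∑ I, w I := by
  refine csInf_le ⟨0, ?_⟩ ⟨w, hw, rfl⟩
  rintro _ ⟨u, hu, rfl⟩
  exact sum_nonneg fun I _ => hu.1 I

lemma exists_fracColouring [Fintype V] {G : SimpleGraph V} {k : ℕ} (h : G.Colorable k) :
    ∃ w, FracColouring G w ∧ ∑ I, w I = k := by
  obtain ⟨C⟩ := h
  set A : Fin k → Finset V := fun c => univ.filter fun v => C v = c with hA
  refine ⟨push A fun _ => 1, ⟨push_nonneg _ fun _ => zero_le_one, fun I hI => ?_, fun v => ?_⟩, ?_⟩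
  · obtain ⟨c, -, hc⟩ := exists_ne_zero_of_sum_ne_zero hI
    have e : A c = I := by by_contra h; exact hc (if_neg h)
    rw [← e]
    intro a ha b hb _ hab
    exact C.valid hab ((mem_filter.1 ha).2.trans (mem_filter.1 hb).2.symm)
  · refine le_trans (le_push A (P := fun _ => (1 : ℝ)) (fun _ => zero_le_one) (C v)) ?_
    exact single_le_sum (f := push A fun _ => (1 : ℝ)) (fun I _ => push_nonneg _ (fun _ => zero_le_one) I)
      (by simp [hA])
  · have := sum_push A (fun _ => (1 : ℝ)) fun _ => (1 : ℝ)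
    simpa using this

lemma chiF_le [Fintype V] {G : SimpleGraph V} {k : ℕ} (h : G.Colorable k) : chiF G ≤ k := by
  obtain ⟨w, hw, e⟩ := exists_fracColouring h
  exact e ▸ chiF_le_sum hw

lemma half_le_chiF [Fintype V] {G : SimpleGraph V} (hG : G.indepNum ≤ 2) :
    (Fintype.card V : ℝ) / 2 ≤ chiF G := by
  obtain ⟨w0, hw0, -⟩ := exists_fracColouring G.colorable_of_fintype
  refine le_csInf ⟨_, w0, hw0, rfl⟩ ?_
  rintro _ ⟨w, hw, rfl⟩
  have h1 : (Fintype.card V : ℝ) ≤ ∑ I, w I * (I.card : ℝ) := by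
    rw [sum_card_mul]
    calc (Fintype.card V : ℝ) = ∑ _v : V, (1 : ℝ) := by simp
      _ ≤ _ := sum_le_sum fun v _ => hw.2.2 v
  have h2 : ∑ I, w I * (I.card : ℝ) ≤ ∑ I, w I * 2 := by
    refine sum_le_sum fun I _ => ?_
    by_cases hI : w I = 0
    · simp [hI]
    · exact mul_le_mul_of_nonneg_left (by exact_mod_cast (hw.2.1 I hI).card_le_indepNum.trans hG) (hw.1 I)
  rw [← sum_mul] at h2
  linarith

lemma indepNum_blow [Fintype V] (G : SimpleGraph V) (r : ℕ) : (blow G r).indepNum ≤ G.indepNum := by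
  obtain ⟨s, hs⟩ := (blow G r).exists_isNIndepSet_indepNum
  have hinj : Set.InjOn Prod.fst (s : Set (V × Fin r)) := fun a ha b hb h => by
    by_contra hne
    exact hs.isIndepSet ha hb hne ⟨hne, Or.inl (Or.inl h)⟩
  rw [← hs.card_eq, ← card_image_of_injOn hinj]
  refine SimpleGraph.IsIndepSet.card_le_indepNum ?_
  intro a ha b hb hab h
  rw [coe_image] at ha hb
  obtain ⟨x, hx, rfl⟩ := ha
  obtain ⟨y, hy, rfl⟩ := hb
  have hne : x ≠ y := fun e => hab (by rw [e])
  exact hs.isIndepSet hx hy hne ⟨hne, Or.inl (Or.inr h)⟩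

lemma lt_chromatic [Fintype V] {G : SimpleGraph V} {t : ℕ} (h : (t : ℝ) < chiF G) :
    (t : ℕ∞) < G.chromaticNumber := by
  by_contra hle
  exact absurd (chiF_le (SimpleGraph.chromaticNumber_le_iff_colorable.1 (not_lt.1 hle))) (not_le.2 h)

/-- **Every large order.** -/
theorem frac_n : ∃ n₀ : ℕ, ∀ n : ℕ, n₀ ≤ n → ∃ G : SimpleGraph (Fin n), G.indepNum ≤ 2 ∧
    hadF G < (1 / 2 - 1 / 10 ^ 6) * n ∧ (n : ℝ) / 2 ≤ chiF G ∧
    ∀ r : ℕ, 1 ≤ r → (had (blow G r) : ℕ∞) < (blow G r).chromaticNumber := by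
  obtain ⟨n0, h⟩ := frac_order
  refine ⟨max n0 1, fun n hn => ?_⟩
  obtain ⟨G, hG, hw⟩ := h n ((le_max_left _ _).trans hn)
  have hn1 : (1 : ℝ) ≤ n := by exact_mod_cast (le_max_right _ _).trans hn
  have h1 : hadF G < (1 / 2 - 1 / 10 ^ 6) * n :=
    (hadF_le fun w hw' => (hw w hw').le).trans_lt (by linarith)
  refine ⟨G, hG, h1, by simpa using half_le_chiF hG, fun r hr => lt_chromatic ?_⟩
  have h2 := half_le_chiF ((indepNum_blow G r).trans hG)
  have h3 := had_blow G hr
  have hr' : (1 : ℝ) ≤ r := by exact_mod_cast hr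
  simp only [Fintype.card_prod, Fintype.card_fin, Nat.cast_mul] at h2
  have h4 := mul_lt_mul_of_pos_left h1 (by linarith : (0 : ℝ) < r)
  nlinarith

/-- **Every large `t`.** -/
theorem frac_t : ∃ t₀ : ℕ, ∀ t : ℕ, t₀ ≤ t → ∃ (n : ℕ) (G : SimpleGraph (Fin n)), G.indepNum ≤ 2 ∧
    ¬ CliqueMinor G (t + 1) ∧ hadF G ≤ t ∧ (1 + 2 / 10 ^ 6) * (t : ℝ) < chiF G := by
  obtain ⟨n0, h⟩ := frac_order
  refine ⟨max n0 (10 ^ 8), fun t ht => ?_⟩
  have ht1 : (10 : ℝ) ^ 8 ≤ t := by exact_mod_cast (le_max_right _ _).trans ht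
  set n : ℕ := ⌊(t : ℝ) / (1 / 2 - 101 / 10 ^ 8)⌋₊ with hn
  have h1 : (n : ℝ) ≤ (t : ℝ) / (1 / 2 - 101 / 10 ^ 8) := Nat.floor_le (by positivity)
  have h2 : (t : ℝ) / (1 / 2 - 101 / 10 ^ 8) < n + 1 := Nat.lt_floor_add_one _
  rw [le_div_iff₀ (by norm_num)] at h1
  rw [div_lt_iff₀ (by norm_num)] at h2
  have h3 : t ≤ n := by
    have : (t : ℝ) ≤ n := by linarith
    exact_mod_cast this
  obtain ⟨G, hG, hw⟩ := h n (((le_max_left _ _).trans ht).trans h3)
  have h4 : hadF G ≤ t := (hadF_le fun w hw' => (hw w hw').le).trans (by linarith)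
  have h5 := half_le_chiF hG
  rw [Fintype.card_fin] at h5
  refine ⟨n, G, hG, fun hm => ?_, h4, by linarith⟩
  have := minor_le_hadF hm
  push_cast at this
  linarith

end Vale.Agent.N060F
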