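import Vale.Agent.N060F.Fam

/-!
# P060 / N060F: the entropic reduction for fractional clique minors
-/

set_option autoImplicit false

open scoped Classical

noncomputable section

namespace Vale.Agent.N060F

open Vale.Agent.P060.HW Finset

lemma tvb_small {n m r J : ℕ} {C0 : ℝ} (hn : 0 < n)
    (hM : (1 - 62 / 10 ^ 7) * (n : ℝ) ≤ r * ((m - J : ℕ) : ℝ))
    (hZ : C0 + r * J * Real.log n + 1 / 10 ^ 8 * (J * r) ≤ 1 / 10 ^ 15 * (n : ℝ)) :
    Samp.tvb n m r J (1 / 10 ^ 8) C0 ≤ 7 / 10 ^ 6 := by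
  have hn' : (0 : ℝ) < n := by exact_mod_cast hn
  unfold Samp.tvb
  set M : ℝ := r * ((m - J : ℕ) : ℝ)
  have hM0 : 0 < M := lt_of_lt_of_le (by positivity) hM
  have he : Real.exp (1 / 10 ^ 8) - 1 ≤ 1 / 10 ^ 8 + (1 / 10 ^ 8) ^ 2 := by
    have := (abs_le.1 (Real.abs_exp_sub_one_sub_id_le (x := 1 / 10 ^ 8)
      (by rw [abs_of_pos (by positivity)]; norm_num))).2
    linarith
  have h1 := mul_le_mul_of_nonneg_left he hn'.le
  rw [sub_add_eq_add_sub, ← add_div, sub_le_iff_le_add, div_le_iff₀ (by positivity)]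
  nlinarith

/-- From tuples of one type to output (b). -/
lemma outB_tiles {X : Type*} [Fintype X] [Nonempty X] {Adj : X → X → Prop}
    (hsym : ∀ x y, Adj x y → Adj y x) {n m r J : ℕ} (τ : Equiv.Perm (Fin r)) (hτ : ∀ k, τ k ≠ k)
    (D : Samp X n m r) (hD : ∀ s ∈ D.S, Tiles Adj s m τ (D.e s)) {C0 r₁ : ℝ} (hC0 : 0 < C0)
    (hS : Real.log ((Fintype.card X : ℝ) ^ n / D.S.card) ≤ C0) (hn : 0 < n) (hlog : 1 ≤ Real.log n)
    (hr : 1 ≤ r) (hr1 : (r : ℝ) ≤ r₁) (hJ0 : 0 < J) (hJ : 2 * J ≤ m)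
    (htv : Samp.tvb n m r J (1 / 10 ^ 8) C0 ≤ 7 / 10 ^ 6) :
    OutB Adj (4 * ((2 * r₁ + 2 * C0) * Real.log n)) (1 / 24000)
      (8 / 3 * ((2 * r₁ + 2 * C0) * Real.log n / J)) := by
  have hX : 0 < Fintype.card X := Fintype.card_pos
  have hX' : (0 : ℝ) < Fintype.card X := by exact_mod_cast hX
  have hn' : (0 : ℝ) < n := by exact_mod_cast hn
  have hr' : (1 : ℝ) ≤ r := by exact_mod_cast hr
  have hJr : (0 : ℝ) < J := by exact_mod_cast hJ0
  have hS0 : (0 : ℝ) < D.S.card := by exact_mod_cast D.ne.card_pos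
  have hf : (1 : ℝ) ≤ m.factorial := by exact_mod_cast Nat.factorial_pos m
  have hL : D.L ≤ m * r * Real.log n + C0 := by
    unfold Samp.L
    have e : (n : ℝ) ^ (m * r) * (Fintype.card X : ℝ) ^ n / (D.S.card * (m.factorial : ℝ))
        = (n : ℝ) ^ (m * r) * ((Fintype.card X : ℝ) ^ n / D.S.card) / m.factorial := by field_simp
    rw [e, Real.log_div (by positivity) (by positivity), Real.log_mul (by positivity) (by positivity),
      Real.log_pow]
    have := Real.log_nonneg hf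
    push_cast
    linarith
  set a : ℝ := (2 * r₁ + 2 * C0) * Real.log n with ha
  have ha0 : 0 < a := mul_pos (by linarith) (by linarith)
  have hq : (m : ℝ) ≤ 2 * ((m - J : ℕ) : ℝ) := by exact_mod_cast (by omega : m ≤ 2 * (m - J))
  have hq1 : (1 : ℝ) ≤ ((m - J : ℕ) : ℝ) := by exact_mod_cast (by omega : 1 ≤ m - J)
  have hLa : D.L / ((m - J : ℕ) : ℝ) ≤ a := by
    rw [div_le_iff₀ (by linarith), ha]
    set q : ℝ := ((m - J : ℕ) : ℝ)
    have h1 : (m : ℝ) * r ≤ 2 * q * r₁ := mul_le_mul hq hr1 (by linarith) (by linarith)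
    have h2 := mul_le_mul_of_nonneg_right h1 (by linarith : 0 ≤ Real.log n)
    have h3 : 1 ≤ Real.log n * q := one_le_mul_of_one_le_of_one_le hlog hq1
    nlinarith
  have hLb : D.L / (J * ((m - J : ℕ) : ℝ)) ≤ a / J := by
    rw [mul_comm, ← div_div]
    exact div_le_div_of_nonneg_right hLa hJr.le
  obtain ⟨ν, h0, h1, h2, h3, h4, h5⟩ := D.select hr hX hn (lam := 1 / 10 ^ 8) (by positivity) hJ0
    (by omega) hS (fun y y' => ∃ k l, ∀ i j, Adj (pr τ (y, k) i) (pr τ (y', l) j))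
    (fun s hs i j hij => (hD s hs).2.2 i j hij) (fun y => ∀ k, ¬ Adj (y k) (y (τ k)))
    (fun s hs i k => (hD s hs).2.1 i k) ha0 (div_pos ha0 hJr) (c := 7 / 10 ^ 6) (η := 3)
    (by positivity) (by norm_num) hLa hLb htv
  refine outB_mono (by norm_num) (by norm_num) (by norm_num)
    (outB_of_tuples Adj hsym hr τ hτ ν h0 h1 h2 h3 (le_trans (le_of_eq (by congr!)) h4) h5)

/-- **Entropic reduction, fractional form.** -/
theorem reductionF {L r₀ : ℕ} (hL : 10 ^ 8 ≤ L) (hr₀ : 10 ^ 8 * (L + 1) ^ 2 ≤ r₀) :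
    ∃ C : ℝ, ∃ n0 : ℕ, ∀ n : ℕ, n0 ≤ n →
    (∀ G : SimpleGraph (Fin n), G.indepNum ≤ 2 →
      ∃ w, FracMinor G w ∧ (1 / 2 - 101 / 10 ^ 8) * (n : ℝ) ≤ ∑ B, w B) →
    ∀ (X : Type) [Fintype X] [Nonempty X] (Adj : X → X → Prop),
      (∀ x y, Adj x y → Adj y x) → (∀ x y z, Adj x y → Adj y z → Adj x z → False) →
      OutA Adj C (C / n) ∨
      OutC Adj ((n : ℝ) ^ C) (1 / 2000) (C * (Real.log n) ^ 2 / n) := by
  have hr0 : 0 < r₀ := lt_of_lt_of_le (by positivity) hr₀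
  have hr0' : (1 : ℝ) ≤ r₀ := by exact_mod_cast hr0
  obtain ⟨T, hT⟩ : ∃ T, T = Fintype.card (Σ r : Fin (2 * r₀), Equiv.Perm (Fin r)) := ⟨_, rfl⟩
  obtain ⟨C0, hC0⟩ : ∃ C0 : ℝ, C0 = 2 * T + 1 := ⟨_, rfl⟩
  have hC00 : 0 < C0 := by rw [hC0]; positivity
  obtain ⟨γ, hγ⟩ : ∃ γ : ℝ, γ = 1 / (10 ^ 16 * (2 * r₀)) := ⟨_, rfl⟩
  have hγ0 : 0 < γ := by rw [hγ]; positivity
  have hγr : 2 * r₀ * γ = 1 / 10 ^ 16 := by rw [hγ]; field_simp
  obtain ⟨K, hK⟩ : ∃ K : ℝ, K = 2 * (2 * r₀) + 2 * C0 := ⟨_, rfl⟩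
  have hK0 : 0 < K := by rw [hK]; positivity
  obtain ⟨l, hl⟩ : ∃ l : ℝ, l = 2 + Real.log (1 / (1 / 10 ^ 8)) := ⟨_, rfl⟩
  set C : ℝ := max (max (4 * l) (24 * l / (1 / 10 ^ 8))) (max (24000 * (4 * K + 1) + 1) (11 * K / γ))
    with hC
  have hC1 : 4 * l ≤ C := (le_max_left _ _).trans (le_max_left _ _)
  have hC2 : 24 * l / (1 / 10 ^ 8) ≤ C := (le_max_right _ _).trans (le_max_left _ _)
  have hC3 : 24000 * (4 * K + 1) + 1 ≤ C := (le_max_left _ _).trans (le_max_right _ _)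
  have hC4 : 11 * K / γ ≤ C := (le_max_right _ _).trans (le_max_right _ _)
  have ev1 : ∀ᶠ n : ℕ in Filter.atTop, 1 ≤ Real.log n :=
    (Real.tendsto_log_atTop.comp tendsto_natCast_atTop_atTop).eventually_ge_atTop 1
  have ev2 : ∀ᶠ n : ℕ in Filter.atTop, Real.log n ≤ γ / 2 * n := by
    have h := Real.isLittleO_log_id_atTop.bound (show (0 : ℝ) < γ / 2 by positivity)
    have h2 := tendsto_natCast_atTop_atTop (R := ℝ) |>.eventually h
    filter_upwards [h2] with n hn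
    simp only [Real.norm_eq_abs, id] at hn
    rw [abs_of_nonneg (Nat.cast_nonneg n : (0 : ℝ) ≤ n)] at hn
    exact (le_abs_self _).trans hn
  have ev3 : ∀ᶠ n : ℕ in Filter.atTop, 10 ^ 16 * C0 ≤ (n : ℝ) :=
    tendsto_natCast_atTop_atTop.eventually_ge_atTop _
  have ev4 : ∀ᶠ n : ℕ in Filter.atTop, 10 ^ 9 ≤ (n : ℝ) :=
    tendsto_natCast_atTop_atTop.eventually_ge_atTop _
  obtain ⟨n0, hn0⟩ := Filter.eventually_atTop.1
    (ev1.and (ev2.and (ev3.and (ev4.and (Filter.eventually_ge_atTop r₀)))))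
  refine ⟨C, n0, fun n hn hHad X _ _ Adj hsym htri => ?_⟩
  obtain ⟨hlog, hlogn, hn3, hn4, hn5⟩ := hn0 n hn
  have hnpos : (0 : ℝ) < n := lt_of_lt_of_le (by positivity) hn4
  have hnpos' : 0 < n := by exact_mod_cast hnpos
  have hlogpos : 0 < Real.log n := by linarith only [hlog]
  set p : ℕ := ⌈1 / 10 ^ 8 * (n : ℝ)⌉₊ with hp
  have hp1 : 1 / 10 ^ 8 * (n : ℝ) ≤ p := Nat.le_ceil _
  have hp2 : (p : ℝ) ≤ 1 / 10 ^ 8 * (n : ℝ) + 1 := (Nat.ceil_lt_add_one (by positivity)).le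
  have hp3 : 3 ≤ p := by
    have : (3 : ℝ) ≤ p := by linarith only [hp1, hn4]
    exact_mod_cast this
  set d : ℕ := ⌈606 / 10 ^ 8 * (n : ℝ) + 4 * p⌉₊ with hd
  have hd1 : 606 / 10 ^ 8 * (n : ℝ) + 4 * p ≤ d := Nat.le_ceil _
  have hd2 : (d : ℝ) ≤ 606 / 10 ^ 8 * (n : ℝ) + 4 * p + 1 := (Nat.ceil_lt_add_one (by positivity)).le
  set m : ℕ := n / r₀ with hm
  have hm0 : 0 < m := Nat.div_pos hn5 hr0
  have hm1 : m * r₀ ≤ n := Nat.div_mul_le_self _ _
  have hm2 : n < m * (2 * r₀) := by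
    have h1 : n < r₀ * (m + 1) := Nat.lt_mul_div_succ n hr0
    nlinarith only [h1, hm0]
  set J : ℕ := ⌊γ * n / Real.log n⌋₊ with hJ
  have hJ1 : (J : ℝ) * Real.log n ≤ γ * n := by
    rw [← le_div_iff₀ hlogpos]; exact Nat.floor_le (by positivity)
  have h2le : 2 ≤ γ * n / Real.log n := by
    rw [le_div_iff₀ hlogpos]; linarith only [hlogn]
  have hJ2 : γ * n / Real.log n ≤ 2 * J := by
    have h4 : γ * n / Real.log n < J + 1 := Nat.lt_floor_add_one _
    linarith only [h2le, h4]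
  have hJr : (0 : ℝ) < J := by linarith only [hJ2, h2le]
  have hJ0 : 0 < J := by exact_mod_cast hJr
  have hJ3 : (J : ℝ) ≤ γ * n := (le_mul_of_one_le_right hJr.le hlog).trans hJ1
  have hJm : 2 * J ≤ m := by
    have h1 : (n : ℝ) ≤ m * (2 * r₀) := by exact_mod_cast hm2.le
    have h2 : γ * n ≤ γ * (m * (2 * r₀)) := mul_le_mul_of_nonneg_left h1 hγ0.le
    have h3 : γ * (m * (2 * r₀)) = m * (2 * r₀ * γ) := by ring
    rw [h3, hγr] at h2
    have h4 : (0 : ℝ) ≤ m := Nat.cast_nonneg _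
    have h5 : (2 * J : ℝ) ≤ m := by linarith only [h2, h4, hJ3]
    exact_mod_cast h5
  rcases exists_sampF Adj hsym htri (p := p) (d := d) (L := L) (m := m) (r₁ := 2 * r₀) (by omega) hm0 hm2
    (fun G hG => by
      obtain ⟨w, hw, h⟩ := hHad G hG
      exact ⟨w, hw, by linarith only [h, hd1]⟩) with ⟨D, hS, hD⟩ | ⟨r, τ, D, hr, hτ, hcov, hS, hD⟩
  · left
    have := outA_of_samp Adj D hS hD hnpos' hp3 (δ := 1 / 10 ^ 8) (by positivity) (by norm_num) hp1
    rw [← hl] at this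
    refine outA_mono hC1 ?_ this
    calc 24 * l / (1 / 10 ^ 8 * n) = 24 * l / (1 / 10 ^ 8) / n := by rw [div_div]
      _ ≤ C / n := div_le_div_of_nonneg_right hC2 hnpos.le
  · right
    rw [← hT] at hS
    have hr1 : (r : ℝ) ≤ 2 * r₀ := by exact_mod_cast hr.le
    have hr2 : (0 : ℝ) ≤ r := Nat.cast_nonneg _
    have hS' : Real.log ((Fintype.card X : ℝ) ^ n / D.S.card) ≤ C0 := by
      have hS0 : (0 : ℝ) < D.S.card := by exact_mod_cast D.ne.card_pos
      have hX' : (0 : ℝ) < Fintype.card X := by exact_mod_cast Fintype.card_pos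
      have h1 : (Fintype.card X : ℝ) ^ n / D.S.card ≤ 2 * T := by
        rw [div_le_iff₀ hS0]; exact_mod_cast hS
      have h2 := Real.log_le_sub_one_of_pos (show 0 < (Fintype.card X : ℝ) ^ n / D.S.card by positivity)
      linarith only [h1, h2, hC0]
    have hA : ((m * (L + 1) ^ 2 : ℕ) : ℝ) ≤ 1 / 10 ^ 8 * n := by
      have h1 : 10 ^ 8 * (m * (L + 1) ^ 2) ≤ n := by
        calc 10 ^ 8 * (m * (L + 1) ^ 2) = m * (10 ^ 8 * (L + 1) ^ 2) := by ring
          _ ≤ m * r₀ := Nat.mul_le_mul_left _ hr₀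
          _ ≤ n := hm1
      have h2 : (10 : ℝ) ^ 8 * ((m * (L + 1) ^ 2 : ℕ) : ℝ) ≤ n := by exact_mod_cast h1
      linarith only [h2]
    have hB : ((n / L : ℕ) : ℝ) ≤ 1 / 10 ^ 8 * n := by
      have h1 : 10 ^ 8 * (n / L) ≤ n := (Nat.mul_le_mul_right _ hL).trans (Nat.mul_div_le n L)
      have h2 : (10 : ℝ) ^ 8 * ((n / L : ℕ) : ℝ) ≤ n := by exact_mod_cast h1
      linarith only [h2]
    have hcov' : (n : ℝ) ≤ m * r + ((m * (L + 1) ^ 2 : ℕ) : ℝ) + d + ((n / L : ℕ) : ℝ) := by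
      exact_mod_cast hcov
    have hrJ : (r : ℝ) * (J * Real.log n) ≤ 1 / 10 ^ 16 * n := by
      calc (r : ℝ) * (J * Real.log n) ≤ 2 * r₀ * (γ * n) := mul_le_mul hr1 hJ1 (by positivity) (by positivity)
        _ = 2 * r₀ * γ * n := by ring
        _ = _ := by rw [hγr]
    have hrJ' : (r : ℝ) * J ≤ 1 / 10 ^ 16 * n :=
      (mul_le_mul_of_nonneg_left (le_mul_of_one_le_right hJr.le hlog) hr2).trans hrJ
    have hM : (1 - 62 / 10 ^ 7) * (n : ℝ) ≤ r * ((m - J : ℕ) : ℝ) := by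
      rw [Nat.cast_sub (by omega), mul_sub]
      linarith only [hcov', hA, hB, hd2, hp2, hrJ', hn4]
    have hr3 : 1 ≤ r := by
      by_contra h
      have h0 : r = 0 := by omega
      have h1 : (r : ℝ) = 0 := by exact_mod_cast h0
      rw [h1, zero_mul] at hM
      linarith only [hM, hn4]
    have hout := outB_tiles hsym τ hτ D hD hC00 hS' hnpos' hlog hr3 hr1 hJ0 hJm
      (tvb_small hnpos' hM (by linarith only [hrJ, hrJ', hn3, hn4]))
    rw [← hK] at hout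
    refine outC_mono ?_ (by norm_num) ?_
      (outC_of_outB (by positivity) (by norm_num) (by norm_num) hout)
    · rw [Real.rpow_def_of_pos hnpos]
      have h3 : (2 : ℝ) ≤ Real.exp 1 := by
        have := Real.add_one_le_exp (1 : ℝ); linarith only [this]
      refine (mul_le_mul_of_nonneg_right h3 (Real.exp_pos _).le).trans ?_
      rw [← Real.exp_add]
      apply Real.exp_le_exp.2
      have h4 := mul_le_mul_of_nonneg_left hC3 hlogpos.le
      linarith only [h4, hlog]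
    · have h5 : K * Real.log n / J ≤ 2 * (K / γ) * (Real.log n ^ 2 / n) := by
        rw [div_le_iff₀ hJr]
        have h6 : K * Real.log n = (K / γ) * (Real.log n ^ 2 / n) * (γ * n / Real.log n) := by
          field_simp
        rw [h6]
        have h7 := mul_le_mul_of_nonneg_left hJ2
          (show 0 ≤ (K / γ) * (Real.log n ^ 2 / n) by positivity)
        linarith only [h7]
      have h8 := mul_le_mul_of_nonneg_right hC4 (show 0 ≤ Real.log n ^ 2 / n by positivity)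
      have h9 : 0 ≤ (K / γ) * (Real.log n ^ 2 / n) := by positivity
      have e1 : C * Real.log n ^ 2 / n = C * (Real.log n ^ 2 / n) := by ring
      have e2 : 11 * K / γ * (Real.log n ^ 2 / n) = 11 * ((K / γ) * (Real.log n ^ 2 / n)) := by ring
      rw [e1]
      rw [e2] at h8
      linarith only [h5, h8, h9]

/-- **All large orders**: every fractional clique minor is small. -/
theorem frac_order : ∃ n0 : ℕ, ∀ n : ℕ, n0 ≤ n → ∃ G : SimpleGraph (Fin n), G.indepNum ≤ 2 ∧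
    ∀ w, FracMinor G w → ∑ B, w B < (1 / 2 - 101 / 10 ^ 8) * (n : ℝ) := by
  obtain ⟨C, n1, hred⟩ := reductionF (L := 10 ^ 8) le_rfl le_rfl
  obtain ⟨n2, hhost⟩ := hosts_of frameInst ex1 exC (tvls_of (tv_of tvK2 TvS.tvSel tvLoc ex1) ls ldFam)
    overlap notOutA C
  refine ⟨max n1 n2, fun n hn => ?_⟩
  by_contra hcon
  push Not at hcon
  obtain ⟨X, _, _, Adj, hs, ht, hA, hB⟩ := hhost n ((le_max_right _ _).trans hn)
  rcases hred n ((le_max_left _ _).trans hn) hcon X Adj hs ht with h | h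
  · exact hA h
  · exact hB h

end Vale.Agent.N060F
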